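import Vale.Agent.Lib.P002.G1Defs

/-!
Normal form of a pair of matrices of determinant one whose commutator is upper triangular and
whose product, with columns reversed, is upper triangular (third copy of pool job 387).
-/

namespace Vale.Agent.Lib.P002.H96

open Matrix
open Vale.Agent.Lib.P002

theorem g1_chart_normal {n : ℕ} (δ : Fin n → ℂ) (A B : Matrix (Fin n) (Fin n) ℂ)
    (hA : A.det = 1) (hB : B.det = 1)
    (hK : ∀ i j, j < i → cmm A B i j = 0) (hKd : ∀ i, cmm A B i i = δ i)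
    (hc : ∀ i j, j < i → (B * A * revM ℂ n) i j = 0)
    (htr : trailDet n (B * revM ℂ n) ≠ 0) :
    ∃ U Lo l b : Matrix (Fin n) (Fin n) ℂ,
      (∀ i j, j < i → U i j = 0) ∧ (∀ i, U i i ≠ 0) ∧ (∀ i j, i < j → Lo i j = 0) ∧
      (∀ i, Lo i i ≠ 0) ∧ (∀ i j, i < j → l i j = 0) ∧ (∀ i, l i i = 1) ∧
      (∀ i j, j < i → b i j = 0) ∧
      (∀ i, b i i = δ i * U i i * Lo (Fin.rev i) (Fin.rev i)) ∧
      U * Lo = l * b ∧ U * Lo = B * revM ℂ n ∧ Lo.det = 1 ∧ U.det = (revM ℂ n).det ∧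
      A = revM ℂ n * Lo.adjugate * revM ℂ n * l.adjugate ∧ B = U * Lo * revM ℂ n := by
  obtain ⟨w, hw⟩ : ∃ w : Matrix (Fin n) (Fin n) ℂ, w = revM ℂ n := ⟨_, rfl⟩
  rw [← hw] at hc htr ⊢
  have hww : w * w = 1 := by rw [hw]; exact revM_mul_revM n
  have hdw : w.det * w.det = 1 := by rw [hw]; exact det_revM_mul_self n
  have hdw0 : w.det ≠ 0 := by
    intro h
    rw [h, zero_mul] at hdw
    exact zero_ne_one hdw
  have hconj : ∀ (X : Matrix (Fin n) (Fin n) ℂ) (i j : Fin n),
      (w * X * w) i j = X (Fin.rev i) (Fin.rev j) := by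
    intro X i j
    rw [hw]
    exact revM_conj X i j
  have hwl : ∀ X : Matrix (Fin n) (Fin n) ℂ, w * (w * X) = X := by
    intro X
    rw [← Matrix.mul_assoc, hww, Matrix.one_mul]
  -- the UL factorization of B w
  obtain ⟨V, T, hV, hV1, hT, hMVT⟩ := exists_ul n (B * w) htr
  have hdV : V.det = 1 := by
    rw [det_ut hV]
    exact Finset.prod_eq_one (fun i _ => hV1 i)
  have hdT : T.det = w.det := by
    have h := congrArg Matrix.det hMVT
    rw [Matrix.det_mul, Matrix.det_mul, hB, hdV, one_mul, one_mul] at h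
    exact h.symm
  have hdT0 : T.det ≠ 0 := by rw [hdT]; exact hdw0
  have hT0 : ∀ i, T i i ≠ 0 := by
    intro i
    have h : ∏ i, T i i ≠ 0 := by
      rw [← det_lt hT]
      exact hdT0
    exact (Finset.prod_ne_zero_iff.mp h) i (Finset.mem_univ i)
  -- the matrix c = B A w
  obtain ⟨c, hcdef⟩ : ∃ c : Matrix (Fin n) (Fin n) ℂ, c = B * A * w := ⟨_, rfl⟩
  rw [← hcdef] at hc
  have hdc : c.det = w.det := by
    rw [hcdef, Matrix.det_mul, Matrix.det_mul, hA, hB, one_mul, one_mul]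
  have hc0 : ∀ i, c i i ≠ 0 := by
    intro i
    have h : ∏ i, c i i ≠ 0 := by
      rw [← det_ut hc, hdc]
      exact hdw0
    exact (Finset.prod_ne_zero_iff.mp h) i (Finset.mem_univ i)
  have hcw : c * w = B * A := by
    rw [hcdef, Matrix.mul_assoc, hww, Matrix.mul_one]
  -- the diagonal matrices
  obtain ⟨D, hD⟩ : ∃ D : Matrix (Fin n) (Fin n) ℂ, D = Matrix.diagonal (fun i => c i i) :=
    ⟨_, rfl⟩
  obtain ⟨Di, hDi⟩ : ∃ Di : Matrix (Fin n) (Fin n) ℂ,
      Di = Matrix.diagonal (fun i => (c i i)⁻¹) := ⟨_, rfl⟩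
  have hDDi : D * Di = 1 := by
    rw [hD, hDi, Matrix.diagonal_mul_diagonal]
    rw [← Matrix.diagonal_one]
    congr 1
    funext i
    exact mul_inv_cancel₀ (hc0 i)
  have hDiD : Di * D = 1 := by
    rw [hD, hDi, Matrix.diagonal_mul_diagonal]
    rw [← Matrix.diagonal_one]
    congr 1
    funext i
    exact inv_mul_cancel₀ (hc0 i)
  -- U and Lo
  obtain ⟨U, hUdef⟩ : ∃ U : Matrix (Fin n) (Fin n) ℂ, U = V * D := ⟨_, rfl⟩
  obtain ⟨Lo, hLodef⟩ : ∃ Lo : Matrix (Fin n) (Fin n) ℂ, Lo = Di * T := ⟨_, rfl⟩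
  have hUij : ∀ i j, U i j = V i j * c j j := by
    intro i j
    rw [hUdef, hD, Matrix.mul_diagonal]
  have hLoij : ∀ i j, Lo i j = (c i i)⁻¹ * T i j := by
    intro i j
    rw [hLodef, hDi, Matrix.diagonal_mul]
  have hUut : ∀ i j, j < i → U i j = 0 := by
    intro i j hij
    rw [hUij, hV i j hij, zero_mul]
  have hUd : ∀ i, U i i = c i i := by
    intro i
    rw [hUij, hV1, one_mul]
  have hLolt : ∀ i j, i < j → Lo i j = 0 := by
    intro i j hij
    rw [hLoij, hT i j hij, mul_zero]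
  have hLod : ∀ i, Lo i i ≠ 0 := by
    intro i
    rw [hLoij]
    exact mul_ne_zero (inv_ne_zero (hc0 i)) (hT0 i)
  have hULo : U * Lo = B * w := by
    rw [hUdef, hLodef, hMVT]
    calc V * D * (Di * T) = V * (D * Di) * T := by simp only [Matrix.mul_assoc]
      _ = V * T := by rw [hDDi, Matrix.mul_one]
  have hBeq : B = U * Lo * w := by
    rw [hULo, Matrix.mul_assoc, hww, Matrix.mul_one]
  -- inverse of U
  obtain ⟨Ui, hUidef⟩ : ∃ Ui : Matrix (Fin n) (Fin n) ℂ, Ui = Di * V.adjugate := ⟨_, rfl⟩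
  have hUiij : ∀ i j, Ui i j = (c i i)⁻¹ * V.adjugate i j := by
    intro i j
    rw [hUidef, hDi, Matrix.diagonal_mul]
  have hUiut : ∀ i j, j < i → Ui i j = 0 := by
    intro i j hij
    rw [hUiij, ut_adjugate hV hdV i j hij, mul_zero]
  have hVad : ∀ i, V.adjugate i i = 1 := by
    intro i
    have h := ut_adjugate_diag hV hdV i
    rw [hV1, mul_one] at h
    exact h
  have hUUi : U * Ui = 1 := by
    rw [hUdef, hUidef]
    calc V * D * (Di * V.adjugate) = V * (D * Di) * V.adjugate := by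
          simp only [Matrix.mul_assoc]
      _ = 1 := by rw [hDDi, Matrix.mul_one, mul_adjugate_of_det hdV]
  have hUl : ∀ X : Matrix (Fin n) (Fin n) ℂ, U * (Ui * X) = X := by
    intro X
    rw [← Matrix.mul_assoc, hUUi, Matrix.one_mul]
  -- inverse of Lo
  obtain ⟨Loi, hLoidef⟩ : ∃ Loi : Matrix (Fin n) (Fin n) ℂ, Loi = T⁻¹ * D := ⟨_, rfl⟩
  have hTT : T * T⁻¹ = 1 := Matrix.mul_nonsing_inv T (isUnit_iff_ne_zero.mpr hdT0)
  have hLoLoi : Lo * Loi = 1 := by
    rw [hLodef, hLoidef]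
    calc Di * T * (T⁻¹ * D) = Di * (T * T⁻¹) * D := by simp only [Matrix.mul_assoc]
      _ = 1 := by rw [hTT, Matrix.mul_one, hDiD]
  have hLol : ∀ X : Matrix (Fin n) (Fin n) ℂ, Lo * (Loi * X) = X := by
    intro X
    rw [← Matrix.mul_assoc, hLoLoi, Matrix.one_mul]
  -- the matrix li
  obtain ⟨li, hlidef⟩ : ∃ li : Matrix (Fin n) (Fin n) ℂ, li = w * (Ui * c) * w := ⟨_, rfl⟩
  have hUic : ∀ i j, j < i → (Ui * c) i j = 0 := ut_mul hUiut hc
  have hlilt : ∀ i j, i < j → li i j = 0 := by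
    intro i j hij
    rw [hlidef, hconj]
    exact hUic _ _ (Fin.rev_lt_rev.mpr hij)
  have hlid : ∀ i, li i i = 1 := by
    intro i
    rw [hlidef, hconj, ut_mul_diag hUiut hc, hUiij, hVad, mul_one]
    exact inv_mul_cancel₀ (hc0 _)
  have hdli : li.det = 1 := by
    rw [det_lt hlilt]
    exact Finset.prod_eq_one (fun i _ => hlid i)
  obtain ⟨l, hldef⟩ : ∃ l : Matrix (Fin n) (Fin n) ℂ, l = li.adjugate := ⟨_, rfl⟩
  have hllt : ∀ i j, i < j → l i j = 0 := by
    rw [hldef]
    exact lt_adjugate hlilt hdli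
  have hld : ∀ i, l i i = 1 := by
    intro i
    have h := lt_adjugate_diag hlilt hdli i
    rw [hlid, mul_one] at h
    rw [hldef]
    exact h
  have hlli : l * li = 1 := by
    rw [hldef]
    exact adjugate_mul_of_det hdli
  have hdl : l.det = 1 := by
    have h := congrArg Matrix.det hlli
    rw [Matrix.det_mul, hdli, mul_one, Matrix.det_one] at h
    exact h
  have hladj : l.adjugate = li := by
    rw [adjugate_eq_inv hdl]
    exact Matrix.inv_eq_right_inv hlli
  -- A in the chart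
  have hBA : B * (w * Loi * w * li) = B * A := by
    rw [← hcw]
    conv_lhs => rw [hBeq, hlidef]
    simp only [Matrix.mul_assoc, hwl, hLol, hUl]
  have hAeq : A = w * Loi * w * li := by
    have h := congrArg (fun X => B.adjugate * X) hBA
    simp only [← Matrix.mul_assoc, adjugate_mul_of_det hB, Matrix.one_mul] at h
    exact h.symm
  have hdLoi : Loi.det = 1 := by
    have h := congrArg Matrix.det hAeq
    rw [Matrix.det_mul, Matrix.det_mul, Matrix.det_mul, hA, hdli, mul_one] at h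
    have h2 : w.det * Loi.det * w.det = Loi.det * (w.det * w.det) := by ring
    rw [h2, hdw, mul_one] at h
    exact h.symm
  have hdLo : Lo.det = 1 := by
    have h := congrArg Matrix.det hLoLoi
    rw [Matrix.det_mul, hdLoi, mul_one, Matrix.det_one] at h
    exact h
  have hLoadj : Lo.adjugate = Loi := by
    rw [adjugate_eq_inv hdLo]
    exact Matrix.inv_eq_right_inv hLoLoi
  have hdU : U.det = w.det := by
    have h := congrArg Matrix.det hULo
    rw [Matrix.det_mul, Matrix.det_mul, hdLo, hB, mul_one, one_mul] at h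
    exact h
  -- the matrix b
  have hKBA : cmm A B * (B * A) = A * B := by
    show A * B * A.adjugate * B.adjugate * (B * A) = A * B
    calc A * B * A.adjugate * B.adjugate * (B * A)
        = A * B * (A.adjugate * ((B.adjugate * B) * A)) := by simp only [Matrix.mul_assoc]
      _ = A * B := by
          rw [adjugate_mul_of_det hB, Matrix.one_mul, adjugate_mul_of_det hA, Matrix.mul_one]
  have hwLow : ∀ i j, j < i → (w * Lo * w) i j = 0 := by
    intro i j hij
    rw [hconj]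
    exact hLolt _ _ (Fin.rev_lt_rev.mpr hij)
  obtain ⟨b, hbdef⟩ : ∃ b : Matrix (Fin n) (Fin n) ℂ, b = w * Lo * w * cmm A B * c := ⟨_, rfl⟩
  have hb1 : ∀ i j, j < i → (w * Lo * w * cmm A B) i j = 0 := ut_mul hwLow hK
  have hbut : ∀ i j, j < i → b i j = 0 := by
    rw [hbdef]
    exact ut_mul hb1 hc
  have hbd : ∀ i, b i i = δ i * U i i * Lo (Fin.rev i) (Fin.rev i) := by
    intro i
    rw [hbdef, ut_mul_diag hb1 hc, ut_mul_diag hwLow hK, hconj, hKd, hUd]
    ring
  have hbeq : b = li * (B * w) := by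
    have h1 : cmm A B * c = A * B * w := by
      rw [hcdef, ← Matrix.mul_assoc (cmm A B) (B * A) w, hKBA]
    have h2 : w * Lo * w * A = li := by
      rw [hAeq]
      simp only [Matrix.mul_assoc, hwl, hLol]
    calc b = w * Lo * w * (cmm A B * c) := by rw [hbdef]; simp only [Matrix.mul_assoc]
      _ = w * Lo * w * A * (B * w) := by rw [h1]; simp only [Matrix.mul_assoc]
      _ = li * (B * w) := by rw [h2]
  have hlb : U * Lo = l * b := by
    rw [hbeq, ← Matrix.mul_assoc l li (B * w), hlli, Matrix.one_mul, hULo]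
  refine ⟨U, Lo, l, b, hUut, ?_, hLolt, hLod, hllt, hld, hbut, hbd, hlb, hULo, hdLo, hdU, ?_, hBeq⟩
  · intro i
    rw [hUd]
    exact hc0 i
  · rw [hLoadj, hladj]
    exact hAeq

end Vale.Agent.Lib.P002.H96
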