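import Mathlib

/-!
# P002, pool job G1-F (helper96, second copy): numbers with a prescribed product

Given nonzero complex numbers `q 0, …, q k` whose product is not `c ≠ 0`, there are nonzero
`p 0, …, p k` with product `c`, with `p i ≠ q i` for every `i`, and (when `k ≥ 1`) with `p 0`
different from a prescribed number `f`.
-/

namespace Vale.Agent.Lib.P002.H96

open Matrix

theorem g1_numbers (k : ℕ) (q : Fin (k + 1) → ℂ) (c f : ℂ) (hq : ∀ i, q i ≠ 0) (hc : c ≠ 0)
    (hqc : ∏ i, q i ≠ c) :
    ∃ p : Fin (k + 1) → ℂ, (∀ i, p i ≠ 0) ∧ ∏ i, p i = c ∧ (∀ i, p i ≠ q i) ∧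
      (1 ≤ k → p 0 ≠ f) := by
  classical
  have hQ : ∏ i : Fin k, q i.succ ≠ 0 := Finset.prod_ne_zero_iff.2 fun i _ => hq _
  have hprod : ∏ i, q i = q 0 * ∏ i : Fin k, q i.succ := Fin.prod_univ_succ _
  obtain ⟨Q, hQdef⟩ : ∃ Q : ℂ, Q = ∏ i : Fin k, q i.succ := ⟨_, rfl⟩
  rw [← hQdef] at hQ hprod
  rcases Nat.eq_zero_or_pos k with hk0 | hk
  · -- `k = 0`: the single number `c`
    subst hk0
    have hQ1 : Q = 1 := by
      rw [hQdef]
      exact Finset.prod_of_isEmpty _
    refine ⟨fun _ => c, fun _ => hc, ?_, ?_, ?_⟩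
    · rw [Fin.prod_univ_succ]
      rw [Finset.prod_of_isEmpty, mul_one]
    · intro i h
      apply hqc
      rw [hprod, hQ1, mul_one]
      have hi : i = 0 := Fin.ext (by
        rw [Fin.val_zero]
        have := i.isLt
        omega)
      rw [← hi]
      exact h.symm
    · intro h
      exact absurd h (by norm_num)
  · -- `k ≥ 1`
    obtain ⟨x, hx⟩ := Infinite.exists_notMem_finset
      (({0, 1} : Finset ℂ) ∪ (Polynomial.nthRoots k (c / (q 0 * Q))).toFinset ∪
        (Polynomial.nthRoots k (c / (f * Q))).toFinset)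
    rw [Finset.mem_union, Finset.mem_union, not_or, not_or, Multiset.mem_toFinset,
      Multiset.mem_toFinset, Polynomial.mem_nthRoots hk, Polynomial.mem_nthRoots hk,
      Finset.mem_insert, Finset.mem_singleton, not_or] at hx
    obtain ⟨⟨⟨hx0, hx1⟩, hx2⟩, hx3⟩ := hx
    have hxk : x ^ k ≠ 0 := pow_ne_zero k hx0
    have hden : x ^ k * Q ≠ 0 := mul_ne_zero hxk hQ
    refine ⟨Fin.cons (c / (x ^ k * Q)) (fun i => x * q i.succ), ?_, ?_, ?_, ?_⟩
    · intro i
      refine Fin.cases ?_ (fun j => ?_) i
      · rw [Fin.cons_zero]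
        exact div_ne_zero hc hden
      · rw [Fin.cons_succ]
        exact mul_ne_zero hx0 (hq _)
    · rw [Fin.prod_univ_succ, Fin.cons_zero]
      have e : ∏ i : Fin k, (Fin.cons (c / (x ^ k * Q)) (fun i => x * q i.succ) :
          Fin (k + 1) → ℂ) i.succ = x ^ k * Q := by
        have hsucc : ∀ i : Fin k, (Fin.cons (c / (x ^ k * Q)) (fun i => x * q i.succ) :
            Fin (k + 1) → ℂ) i.succ = x * q i.succ := fun i => Fin.cons_succ _ _ _
        rw [Finset.prod_congr rfl fun i _ => hsucc i, Finset.prod_mul_distrib,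
          Finset.prod_const, Finset.card_univ, Fintype.card_fin, hQdef]
      rw [e, div_mul_cancel₀ _ hden]
    · intro i
      refine Fin.cases ?_ (fun j => ?_) i
      · rw [Fin.cons_zero]
        intro h
        apply hx2
        rw [← h]
        field_simp
      · rw [Fin.cons_succ]
        intro h
        apply hx1
        have h' : x * q j.succ = 1 * q j.succ := by rw [one_mul]; exact h
        exact mul_right_cancel₀ (hq _) h'
    · intro _
      rw [Fin.cons_zero]
      intro h
      by_cases hf : f = 0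
      · rw [hf] at h
        exact (div_ne_zero hc hden) h
      · apply hx3
        rw [← h]
        field_simp

end Vale.Agent.Lib.P002.H96
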